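import Vale.Agent.Lib.P154N.D8.L0
import Vale.Agent.Lib.P154N.D8.L1
import Vale.Agent.Lib.P154N.D8.L2
import Vale.Agent.Lib.P154N.D8.L3
import Vale.Agent.Lib.P154N.D8.L4
import Vale.Agent.Lib.P154N.D8.L5
import Vale.Agent.Lib.P154N.D8.L6
import Vale.Agent.Lib.P154N.D8.L7
import Vale.Agent.Lib.P154N.D8.L8
import Vale.Agent.Lib.P154N.D8.L9
import Vale.Agent.Lib.P154N.D8.L10
import Vale.Agent.Lib.P154N.D8.L11
import Vale.Agent.Lib.P154N.D8.L12
import Vale.Agent.Lib.P154N.D8.L13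
import Vale.Agent.Lib.P154N.D8.L14
import Vale.Agent.Lib.P154N.D8.L15
import Vale.Agent.Lib.P154N.D8.L16
import Vale.Agent.Lib.P154N.D8.L17
import Vale.Agent.Lib.P154N.D8.L18
import Vale.Agent.Lib.P154N.D8.L19
import Vale.Agent.Lib.P154N.D8.L20
import Vale.Agent.Lib.P154N.D8.L21
import Vale.Agent.Lib.P154N.D8.L22
import Vale.Agent.Lib.P154N.D8.L23
import Vale.Agent.Lib.P154N.D8.L24
import Vale.Agent.Lib.P154N.D8.L25
import Vale.Agent.Lib.P154N.D8.L26
import Vale.Agent.Lib.P154N.D8.L27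
import Vale.Agent.Lib.P154N.D8.L28
import Vale.Agent.Lib.P154N.D8.L29
import Vale.Agent.Lib.P154N.D8.L30
import Vale.Agent.Lib.P154N.D8.L31
import Vale.Agent.Lib.P154N.D8.L32
import Vale.Agent.Lib.P154N.D8.L33
import Vale.Agent.Lib.P154N.D8.L34
import Vale.Agent.Lib.P154N.D8.L35
import Vale.Agent.Lib.P154N.D8.L36
import Vale.Agent.Lib.P154N.D8.L37
import Vale.Agent.Lib.P154N.D8.L38
import Vale.Agent.Lib.P154N.D8.L39
import Vale.Agent.Lib.P154N.D8.L40
import Vale.Agent.Lib.P154N.D8.L41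
import Vale.Agent.Lib.P154N.D8.L42
import Vale.Agent.Lib.P154N.D8.L43
import Vale.Agent.Lib.P154N.D8.L44
import Vale.Agent.Lib.P154N.D8.L45
import Vale.Agent.Lib.P154N.D8.L46
import Vale.Agent.Lib.P154N.D8.L47
import Vale.Agent.Lib.P154N.D8.L48
import Vale.Agent.Lib.P154N.D8.L49
import Vale.Agent.Lib.P154N.D8.L50
import Vale.Agent.Lib.P154N.D8.L51
import Vale.Agent.Lib.P154N.D8.L52
import Vale.Agent.Lib.P154N.D8.L53
import Vale.Agent.Lib.P154N.D8.L54
import Vale.Agent.Lib.P154N.D8.L55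
import Vale.Agent.Lib.P154N.D8.L56
import Vale.Agent.Lib.P154N.D8.L57
import Vale.Agent.Lib.P154N.D8.L58
import Vale.Agent.Lib.P154N.D8.L59
import Vale.Agent.Lib.P154N.D8.L60
import Vale.Agent.Lib.P154N.D8.L61
import Vale.Agent.Lib.P154N.D8.L62
import Vale.Agent.Lib.P154N.D8.L63
import Vale.Agent.Lib.P154N.D8.L64
import Vale.Agent.Lib.P154N.D8.L65
import Vale.Agent.Lib.P154N.D8.L66
import Vale.Agent.Lib.P154N.D8.L67
import Vale.Agent.Lib.P154N.D8.L68
import Vale.Agent.Lib.P154N.D8.L69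
import Vale.Agent.Lib.P154N.D8.L70
import Vale.Agent.Lib.P154N.D8.L71
import Vale.Agent.Lib.P154N.D8.L72
import Vale.Agent.Lib.P154N.D8.L73
import Vale.Agent.Lib.P154N.D8.L74
import Vale.Agent.Lib.P154N.D8.L75
import Vale.Agent.Lib.P154N.D8.L76
import Vale.Agent.Lib.P154N.D8.L77
import Vale.Agent.Lib.P154N.D8.L78
import Vale.Agent.Lib.P154N.D8.L79
import Vale.Agent.Lib.P154N.D8.L80
import Vale.Agent.Lib.P154N.D8.L81
import Vale.Agent.Lib.P154N.D8.L82
import Vale.Agent.Lib.P154N.D8.L83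
import Vale.Agent.Lib.P154N.D8.L84
import Vale.Agent.Lib.P154N.D8.L85
import Vale.Agent.Lib.P154N.D8.L86
import Vale.Agent.Lib.P154N.D8.L87
import Vale.Agent.Lib.P154N.D8.L88
import Vale.Agent.Lib.P154N.D8.L89
import Vale.Agent.Lib.P154N.D8.L90
import Vale.Agent.Lib.P154N.D8.L91
import Vale.Agent.Lib.P154N.D8.L92
import Vale.Agent.Lib.P154N.D8.L93
import Vale.Agent.Lib.P154N.D8.L94
import Vale.Agent.Lib.P154N.D8.L95
import Vale.Agent.Lib.P154N.D8.L96
import Vale.Agent.Lib.P154N.D8.L97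
import Vale.Agent.Lib.P154N.D8.L98
import Vale.Agent.Lib.P154N.D8.L99
import Vale.Agent.Lib.P154N.D8.L100
import Vale.Agent.Lib.P154N.D8.L101
import Vale.Agent.Lib.P154N.D8.L102
import Vale.Agent.Lib.P154N.D8.L103
import Vale.Agent.Lib.P154N.D8.L104
import Vale.Agent.Lib.P154N.D8.L105
import Vale.Agent.Lib.P154N.D8.L106
import Vale.Agent.Lib.P154N.D8.L107
import Vale.Agent.Lib.P154N.D8.L108
import Vale.Agent.Lib.P154N.D8.L109
import Vale.Agent.Lib.P154N.D8.L110
import Vale.Agent.Lib.P154N.D8.L111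
import Vale.Agent.Lib.P154N.D8.L112
import Vale.Agent.Lib.P154N.D8.L113
import Vale.Agent.Lib.P154N.D8.L114
import Vale.Agent.Lib.P154N.D8.L115
import Vale.Agent.Lib.P154N.D8.L116
import Vale.Agent.Lib.P154N.D8.L117
import Vale.Agent.Lib.P154N.D8.L118
import Vale.Agent.Lib.P154N.D8.L119
import Vale.Agent.Lib.P154N.D8.L120
import Vale.Agent.Lib.P154N.D8.L121
import Vale.Agent.Lib.P154N.D8.L122

/-!
# The merge inequalities for the tree with 8 children
-/

namespace Vale.Agent.Lib.P154N.D8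

open Vale.Agent.Lib.P154 Vale.Agent.Lib.P154K Vale.Agent.Lib.P154Neg Tp

noncomputable section

/-- The value of the scale. -/
abbrev ss : ℝ := ((5 : ℕ) : ℝ) / ((14 : ℕ) : ℝ)

theorem root2_0 : HoldsN X2 (chamberN 5 14) (chamberN 5 14) :=
  (HoldsN.splitA (HoldsN.splitB (HoldsN.splitA (HoldsN.splitA (HoldsN.splitB (HoldsN.splitB l0 l1) l2) (HoldsN.splitB (HoldsN.splitB l3 l4) l5)) (HoldsN.splitB (HoldsN.splitB l6 l7) (HoldsN.splitA (HoldsN.splitB l8 l9) l10))) (HoldsN.splitB l11 (HoldsN.splitA (HoldsN.splitA (HoldsN.splitB (HoldsN.splitA l12 (HoldsN.splitB l13 l14)) l15) (HoldsN.splitB (HoldsN.splitB l16 (HoldsN.splitA (HoldsN.splitA l17 l18) l19)) l20)) (HoldsN.splitB (HoldsN.splitA l21 (HoldsN.splitA (HoldsN.splitB l22 l23) l24)) l25)))) (HoldsN.splitA (HoldsN.splitB (HoldsN.splitB (HoldsN.splitB l26 l27) l28) (HoldsN.splitB l29 (HoldsN.splitA (HoldsN.splitB (HoldsN.splitB l30 l31) l35) (HoldsN.splitA (HoldsN.splitB (HoldsN.splitB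 l32 l33) l36) (HoldsN.splitB l34 l37))))) (HoldsN.splitB (HoldsN.splitA (HoldsN.splitB (HoldsN.splitB l38 (HoldsN.splitA l39 (HoldsN.splitA l40 l41))) l42) (HoldsN.splitB (HoldsN.splitB l43 l44) l45)) (HoldsN.splitB l46 (HoldsN.splitA (HoldsN.splitB (HoldsN.splitA l47 (HoldsN.splitB l48 (HoldsN.splitA (HoldsN.splitB (HoldsN.splitA l49 l50) l51) l52))) l53) (HoldsN.splitB (HoldsN.splitB l54 l55) l56))))))

theorem root2_1 : HoldsN X2 (chamberN 5 14) (chamberNR 5 14) :=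
  (HoldsN.splitA (HoldsN.splitB (HoldsN.splitA (HoldsN.splitA (HoldsN.splitB (HoldsN.splitB (HoldsN.splitA l57 (HoldsN.splitB l58 l59)) l60) (HoldsN.splitA l61 (HoldsN.splitB l62 (HoldsN.splitB l63 l64)))) (HoldsN.splitB (HoldsN.splitB l65 l66) l67)) (HoldsN.splitB (HoldsN.splitB (HoldsN.splitA l68 (HoldsN.splitA (HoldsN.splitB l69 (HoldsN.splitB l70 l71)) l72)) l73) (HoldsN.splitA (HoldsN.splitB l74 l75) (HoldsN.splitA (HoldsN.splitB l76 (HoldsN.splitB l77 l78)) l79)))) (HoldsN.splitB l80 (HoldsN.splitA (HoldsN.splitA (HoldsN.splitA (HoldsN.splitB l81 l84) (HoldsN.splitB (HoldsN.splitB l82 l83) (HoldsN.splitA l85 l86))) (HoldsN.splitB (HoldsN.splitB l87 (HoldsN.splitA (HoldsN.splitA l88 l89) l90)) l91)) (HoldsN.splitA (HoldsN.splitB l92 l96) (HoldsN.splitA (HoldsN.splitB (HoldsN.splitB l93 l94) (HoldsN.splitB (HoldsN.splitB l97 l98) (HoldsN.splitA l99 l100))) (HoldsN.splitB l95 l101)))))) (HoldsN.splitA (HoldsN.splitB (HoldsN.splitB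 (HoldsN.splitB (HoldsN.splitA (HoldsN.splitB l102 l103) (HoldsN.splitA (HoldsN.splitB l104 l105) l106)) l107) (HoldsN.splitA (HoldsN.splitB l108 (HoldsN.splitB l109 l110)) (HoldsN.splitA (HoldsN.splitB l111 (HoldsN.splitB l112 l113)) (HoldsN.splitB l114 l115)))) (HoldsN.splitB l116 (HoldsN.splitA (HoldsN.splitB (HoldsN.splitB l117 l118) l123) (HoldsN.splitA (HoldsN.splitB (HoldsN.splitB (HoldsN.splitA l119 l120) l121) (HoldsN.splitB l124 l125)) (HoldsN.splitB l122 l126))))) (HoldsN.splitB (HoldsN.splitA (HoldsN.splitB (HoldsN.splitB l127 (HoldsN.splitA l128 (HoldsN.splitA l129 l130))) l131) (HoldsN.splitB (HoldsN.splitB (HoldsN.splitB l132 l133) l134) (HoldsN.splitB l135 (HoldsN.splitB l136 l137)))) (HoldsN.splitB l138 (HoldsN.splitA (HoldsN.splitB (HoldsN.splitA l139 (HoldsN.splitB l140 (HoldsN.splitA (HoldsN.splitB (HoldsN.splitA l141 l142) l143) l144))) l145) (HoldsN.splitB (HoldsN.splitB l146 l147) l148))))))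

theorem root3_0 : HoldsN X3 (chamber 1 1) (chamberN 5 14) :=
  (HoldsN.splitA (HoldsN.splitA (HoldsN.splitA (HoldsN.splitB (HoldsN.splitB (HoldsN.splitB (HoldsN.splitA (HoldsN.splitB l149 l150) (HoldsN.splitB l151 l152)) l153) (HoldsN.splitA (HoldsN.splitB l154 (HoldsN.splitB l155 l156)) (HoldsN.splitB l157 (HoldsN.splitB l158 l159)))) (HoldsN.splitA (HoldsN.splitB l171 (HoldsN.splitB (HoldsN.splitB l184 l185) l187)) (HoldsN.splitB l172 (HoldsN.splitB l186 l188)))) (HoldsN.splitB (HoldsN.splitB (HoldsN.splitB l160 l161) l162) (HoldsN.splitB l173 (HoldsN.splitA (HoldsN.splitB (HoldsN.splitB l189 l196) l198) (HoldsN.splitB (HoldsN.splitB (HoldsN.splitA (HoldsN.splitB (HoldsN.splitA l190 l191) (HoldsN.splitB l192 (HoldsN.splitA l193 l194))) l195) l197) (HoldsN.splitB l199 l200)))))) (HoldsN.splitB (HoldsN.splitB (HoldsN.splitB (HoldsN.splitA l163 (HoldsN.splitA l164 (HoldsN.splitB l165 l166))) l167) (HoldsN.splitA l168 (HoldsN.splitA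 l169 l170))) (HoldsN.splitA (HoldsN.splitB (HoldsN.splitB (HoldsN.splitA l174 (HoldsN.splitB (HoldsN.splitB l175 l176) l177)) (HoldsN.splitB l178 l179)) (HoldsN.splitB (HoldsN.splitB l201 l202) l206)) (HoldsN.splitA (HoldsN.splitB (HoldsN.splitB l180 (HoldsN.splitB l181 l182)) (HoldsN.splitB l203 l207)) (HoldsN.splitB l183 (HoldsN.splitB (HoldsN.splitB l204 l205) l208)))))) (HoldsN.splitA (HoldsN.splitB (HoldsN.splitB l209 l210) (HoldsN.splitB (HoldsN.splitA l211 (HoldsN.splitA l212 l213)) l214)) (HoldsN.splitA (HoldsN.splitB (HoldsN.splitA (HoldsN.splitB (HoldsN.splitB l215 l217) l219) (HoldsN.splitB (HoldsN.splitB l216 l218) l220)) (HoldsN.splitB l224 (HoldsN.splitA (HoldsN.splitB l226 l228) (HoldsN.splitB l227 l229)))) (HoldsN.splitB (HoldsN.splitB (HoldsN.splitB l221 l222) l223) (HoldsN.splitB l225 (HoldsN.splitB l230 l231))))))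

theorem root3_1 : HoldsN X3 (chamber 1 1) (chamberNR 5 14) :=
  (HoldsN.splitA (HoldsN.splitA (HoldsN.splitA (HoldsN.splitB (HoldsN.splitB (HoldsN.splitB l232 l233) l234) (HoldsN.splitB (HoldsN.splitA l243 l244) (HoldsN.splitB (HoldsN.splitA (HoldsN.splitB l253 l254) l255) l256))) (HoldsN.splitB (HoldsN.splitB (HoldsN.splitB l235 l236) l237) (HoldsN.splitB l245 (HoldsN.splitB (HoldsN.splitB (HoldsN.splitA l257 (HoldsN.splitA (HoldsN.splitB l258 (HoldsN.splitB l259 (HoldsN.splitA l260 l261))) l262)) l263) (HoldsN.splitA l264 l265))))) (HoldsN.splitB (HoldsN.splitB (HoldsN.splitB (HoldsN.splitA l238 l239) l240) (HoldsN.splitA l241 l242)) (HoldsN.splitB (HoldsN.splitA (HoldsN.splitB l246 (HoldsN.splitB l247 l248)) (HoldsN.splitA (HoldsN.splitB l249 (HoldsN.splitB l250 l251)) l252)) (HoldsN.splitB (HoldsN.splitA (HoldsN.splitB l266 l267) (HoldsN.splitA l268 (HoldsN.splitB l269 l270))) l271)))) (HoldsN.splitA (HoldsN.splitB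 (HoldsN.splitB l272 l273) (HoldsN.splitB (HoldsN.splitA l274 (HoldsN.splitA l275 l276)) l277)) (HoldsN.splitA (HoldsN.splitB (HoldsN.splitA (HoldsN.splitB (HoldsN.splitB l278 l280) l282) (HoldsN.splitB (HoldsN.splitB l279 l281) l283)) (HoldsN.splitB l287 (HoldsN.splitA (HoldsN.splitB l289 l291) (HoldsN.splitB l290 l292)))) (HoldsN.splitB (HoldsN.splitB (HoldsN.splitB l284 l285) l286) (HoldsN.splitB l288 (HoldsN.splitB l293 l294))))))

theorem root4_0 : HoldsN X4 (chamber 1 1) (chamberN 5 14) :=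
  (HoldsN.splitA (HoldsN.splitA (HoldsN.splitA (HoldsN.splitB (HoldsN.splitB (HoldsN.splitB (HoldsN.splitA l295 l296) l297) (HoldsN.splitA l298 l299)) (HoldsN.splitA (HoldsN.splitB l311 (HoldsN.splitB (HoldsN.splitB l331 l332) l334)) (HoldsN.splitB l312 (HoldsN.splitB l333 l335)))) (HoldsN.splitB (HoldsN.splitB (HoldsN.splitB l300 l301) l302) (HoldsN.splitB l313 (HoldsN.splitB (HoldsN.splitB l336 l337) l338)))) (HoldsN.splitB (HoldsN.splitB (HoldsN.splitB (HoldsN.splitA (HoldsN.splitB l303 l304) (HoldsN.splitA l305 l306)) l307) (HoldsN.splitA l308 (HoldsN.splitA l309 l310))) (HoldsN.splitA (HoldsN.splitB (HoldsN.splitB (HoldsN.splitA l314 (HoldsN.splitB (HoldsN.splitB l315 (HoldsN.splitA l316 l317)) (HoldsN.splitA l318 l319))) (HoldsN.splitB l320 (HoldsN.splitA l321 (HoldsN.splitB l322 l323)))) (HoldsN.splitB (HoldsN.splitB l339 l340) (HoldsN.splitA l344 (HoldsN.splitB (HoldsN.splitB (HoldsN.splitA l345 l346) l347) (HoldsN.splitA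 l348 l349))))) (HoldsN.splitA (HoldsN.splitB (HoldsN.splitB (HoldsN.splitB (HoldsN.splitB l324 l325) l326) (HoldsN.splitB l327 (HoldsN.splitB l328 l329))) (HoldsN.splitB l341 l350)) (HoldsN.splitB l330 (HoldsN.splitB (HoldsN.splitB l342 l343) (HoldsN.splitA l351 l352))))))) (HoldsN.splitA (HoldsN.splitB (HoldsN.splitB (HoldsN.splitB (HoldsN.splitA l353 (HoldsN.splitA l354 l355)) l356) (HoldsN.splitA l357 (HoldsN.splitA l358 l359))) (HoldsN.splitB (HoldsN.splitA l360 (HoldsN.splitA (HoldsN.splitB l361 (HoldsN.splitB l362 l363)) l364)) (HoldsN.splitB l365 l366))) (HoldsN.splitA (HoldsN.splitB (HoldsN.splitB (HoldsN.splitB l367 (HoldsN.splitA l368 l369)) l370) (HoldsN.splitB l374 (HoldsN.splitB l376 l377))) (HoldsN.splitB (HoldsN.splitB (HoldsN.splitB l371 l372) l373) (HoldsN.splitB l375 (HoldsN.splitB l378 l379))))))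

theorem root4_1 : HoldsN X4 (chamber 1 1) (chamberNR 5 14) :=
  (HoldsN.splitA (HoldsN.splitA (HoldsN.splitA (HoldsN.splitB (HoldsN.splitB (HoldsN.splitB l380 l381) l382) (HoldsN.splitA (HoldsN.splitB l391 (HoldsN.splitB (HoldsN.splitB l402 l403) l405)) (HoldsN.splitB l392 (HoldsN.splitB l404 l406)))) (HoldsN.splitB (HoldsN.splitB (HoldsN.splitB l383 l384) l385) (HoldsN.splitB l393 (HoldsN.splitB (HoldsN.splitB l407 l408) l409)))) (HoldsN.splitB (HoldsN.splitB (HoldsN.splitB (HoldsN.splitA l386 l387) l388) (HoldsN.splitA l389 l390)) (HoldsN.splitA (HoldsN.splitB (HoldsN.splitB l394 (HoldsN.splitB l395 l396)) (HoldsN.splitB (HoldsN.splitB (HoldsN.splitA l410 l411) l412) l416)) (HoldsN.splitA (HoldsN.splitB (HoldsN.splitB l397 (HoldsN.splitB l398 l399)) (HoldsN.splitB l413 l417)) (HoldsN.splitB (HoldsN.splitB l400 l401) (HoldsN.splitB (HoldsN.splitB l414 l415) l418)))))) (HoldsN.splitA (HoldsN.splitB (HoldsN.splitB (HoldsN.splitB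 (HoldsN.splitA l419 (HoldsN.splitA l420 l421)) l422) (HoldsN.splitA l423 (HoldsN.splitA l424 l425))) (HoldsN.splitB (HoldsN.splitA l426 (HoldsN.splitA (HoldsN.splitB l427 (HoldsN.splitB l428 l429)) l430)) (HoldsN.splitB (HoldsN.splitA l431 l432) l433))) (HoldsN.splitA (HoldsN.splitB (HoldsN.splitB (HoldsN.splitB l434 (HoldsN.splitA l435 l436)) l437) (HoldsN.splitB l441 (HoldsN.splitB l443 l444))) (HoldsN.splitB (HoldsN.splitB (HoldsN.splitB l438 l439) l440) (HoldsN.splitB l442 (HoldsN.splitB l445 l446))))))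

theorem root5_0 : HoldsN X5 (chamber 1 1) (chamberN 5 14) :=
  (HoldsN.splitA (HoldsN.splitA (HoldsN.splitA (HoldsN.splitB (HoldsN.splitB (HoldsN.splitB (HoldsN.splitA l447 (HoldsN.splitB l448 l449)) l450) l451) (HoldsN.splitA (HoldsN.splitB l460 (HoldsN.splitB (HoldsN.splitB l482 l483) l485)) (HoldsN.splitB (HoldsN.splitB l461 l462) (HoldsN.splitB l484 l486)))) (HoldsN.splitB l452 (HoldsN.splitB l463 l487))) (HoldsN.splitB (HoldsN.splitB (HoldsN.splitB (HoldsN.splitA l453 (HoldsN.splitA (HoldsN.splitB l454 l455) l456)) l457) (HoldsN.splitA l458 l459)) (HoldsN.splitA (HoldsN.splitB (HoldsN.splitB (HoldsN.splitA (HoldsN.splitA l464 l465) (HoldsN.splitB l466 l467)) (HoldsN.splitB l468 l469)) (HoldsN.splitB (HoldsN.splitB (HoldsN.splitA (HoldsN.splitA l488 l489) l490) l491) (HoldsN.splitA (HoldsN.splitA (HoldsN.splitB l496 l497) l498) (HoldsN.splitB l499 l500)))) (HoldsN.splitA (HoldsN.splitB (HoldsN.splitB (HoldsN.splitB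 (HoldsN.splitB (HoldsN.splitA l470 l471) l472) (HoldsN.splitA l473 l474)) (HoldsN.splitB l475 (HoldsN.splitB l476 l477))) (HoldsN.splitB l492 (HoldsN.splitB (HoldsN.splitB l501 l502) (HoldsN.splitA l503 l504)))) (HoldsN.splitB (HoldsN.splitB (HoldsN.splitA l478 l479) (HoldsN.splitB l480 l481)) (HoldsN.splitB (HoldsN.splitB (HoldsN.splitA l493 l494) l495) (HoldsN.splitA l505 (HoldsN.splitB l506 l507)))))))) (HoldsN.splitA (HoldsN.splitB (HoldsN.splitB (HoldsN.splitB (HoldsN.splitA (HoldsN.splitB l508 l509) (HoldsN.splitA l510 (HoldsN.splitB l511 l512))) l513) (HoldsN.splitA (HoldsN.splitB l514 (HoldsN.splitB l515 l516)) (HoldsN.splitA l517 l518))) (HoldsN.splitB (HoldsN.splitA (HoldsN.splitB l519 (HoldsN.splitB l520 l521)) (HoldsN.splitA (HoldsN.splitB l522 (HoldsN.splitB l523 l524)) (HoldsN.splitB l525 (HoldsN.splitB l526 l527)))) (HoldsN.splitB (HoldsN.splitA l528 (HoldsN.splitA l529 l530)) l531))) (HoldsN.splitA (HoldsN.splitB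 (HoldsN.splitB (HoldsN.splitB l532 l533) l534) (HoldsN.splitB l538 (HoldsN.splitB l540 l541))) (HoldsN.splitB (HoldsN.splitB (HoldsN.splitB l535 l536) l537) (HoldsN.splitB l539 (HoldsN.splitB l542 l543))))))

theorem root5_1 : HoldsN X5 (chamber 1 1) (chamberNR 5 14) :=
  (HoldsN.splitA (HoldsN.splitA (HoldsN.splitA (HoldsN.splitB (HoldsN.splitB (HoldsN.splitB l544 l545) l546) (HoldsN.splitB (HoldsN.splitA l553 (HoldsN.splitB l554 l555)) (HoldsN.splitB (HoldsN.splitA (HoldsN.splitB l566 l567) l568) l569))) (HoldsN.splitB l547 (HoldsN.splitB l556 (HoldsN.splitB l570 l571)))) (HoldsN.splitB (HoldsN.splitB (HoldsN.splitB (HoldsN.splitA l548 l549) l550) (HoldsN.splitA l551 l552)) (HoldsN.splitA (HoldsN.splitB (HoldsN.splitB l557 (HoldsN.splitB l558 l559)) (HoldsN.splitB (HoldsN.splitB (HoldsN.splitA (HoldsN.splitA l572 l573) l574) l575) (HoldsN.splitA l580 l581))) (HoldsN.splitA (HoldsN.splitB (HoldsN.splitB l560 (HoldsN.splitB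 l561 l562)) (HoldsN.splitB l576 l582)) (HoldsN.splitB (HoldsN.splitB l563 (HoldsN.splitB l564 l565)) (HoldsN.splitB (HoldsN.splitB (HoldsN.splitA l577 l578) l579) l583)))))) (HoldsN.splitA (HoldsN.splitB (HoldsN.splitB (HoldsN.splitB (HoldsN.splitA l584 (HoldsN.splitA l585 l586)) l587) (HoldsN.splitA l588 (HoldsN.splitA l589 l590))) (HoldsN.splitB (HoldsN.splitA (HoldsN.splitB l591 (HoldsN.splitB l592 l593)) (HoldsN.splitA (HoldsN.splitB l594 (HoldsN.splitB l595 l596)) l597)) (HoldsN.splitB (HoldsN.splitA l598 (HoldsN.splitA l599 l600)) l601))) (HoldsN.splitA (HoldsN.splitB (HoldsN.splitB (HoldsN.splitB l602 l603) l604) (HoldsN.splitB l608 (HoldsN.splitB l610 l611))) (HoldsN.splitB (HoldsN.splitB (HoldsN.splitB l605 l606) l607) (HoldsN.splitB l609 (HoldsN.splitB l612 l613))))))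

theorem root6_0 : HoldsN X6 (chamber 1 1) (chamberN 5 14) :=
  (HoldsN.splitA (HoldsN.splitA (HoldsN.splitA (HoldsN.splitB (HoldsN.splitB (HoldsN.splitB (HoldsN.splitA l614 l615) l616) l617) (HoldsN.splitA (HoldsN.splitB l625 (HoldsN.splitB l647 l650)) (HoldsN.splitB (HoldsN.splitB l626 (HoldsN.splitB l627 l628)) (HoldsN.splitB (HoldsN.splitB l648 l649) l651)))) (HoldsN.splitB l618 (HoldsN.splitB l629 l652))) (HoldsN.splitB (HoldsN.splitB (HoldsN.splitB (HoldsN.splitA l619 (HoldsN.splitA (HoldsN.splitB l620 l621) l622)) l623) l624) (HoldsN.splitA (HoldsN.splitB (HoldsN.splitB (HoldsN.splitA l630 (HoldsN.splitB l631 l632)) (HoldsN.splitB l633 (HoldsN.splitA l634 l635))) (HoldsN.splitB (HoldsN.splitB (HoldsN.splitA (HoldsN.splitA l653 (HoldsN.splitB l654 l655)) l656) l657) (HoldsN.splitA (HoldsN.splitA l662 l663) l664))) (HoldsN.splitA (HoldsN.splitB (HoldsN.splitB (HoldsN.splitB (HoldsN.splitB l636 (HoldsN.splitA l637 l638))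 l639) (HoldsN.splitB l640 (HoldsN.splitB (HoldsN.splitA l641 l642) l643))) (HoldsN.splitB (HoldsN.splitB l658 l659) (HoldsN.splitB (HoldsN.splitB l665 l666) (HoldsN.splitA l667 l668)))) (HoldsN.splitB (HoldsN.splitB l644 (HoldsN.splitB l645 l646)) (HoldsN.splitB (HoldsN.splitB l660 l661) (HoldsN.splitA l669 l670))))))) (HoldsN.splitA (HoldsN.splitB (HoldsN.splitB (HoldsN.splitB (HoldsN.splitA (HoldsN.splitB l671 l672) (HoldsN.splitA (HoldsN.splitB l673 l674) (HoldsN.splitB l675 l676))) l677) (HoldsN.splitA (HoldsN.splitB l678 (HoldsN.splitB l679 l680)) (HoldsN.splitA (HoldsN.splitB l681 (HoldsN.splitB l682 l683)) (HoldsN.splitB l684 (HoldsN.splitB l685 l686))))) (HoldsN.splitA (HoldsN.splitB (HoldsN.splitB l687 (HoldsN.splitB l688 l689)) (HoldsN.splitB (HoldsN.splitB l694 l695) l699)) (HoldsN.splitB (HoldsN.splitA (HoldsN.splitB l690 (HoldsN.splitB l691 l692)) l693) (HoldsN.splitB (HoldsN.splitA l696 (HoldsN.splitB l697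 l698)) l700)))) (HoldsN.splitA (HoldsN.splitB (HoldsN.splitB (HoldsN.splitB l701 (HoldsN.splitA l702 l703)) l704) (HoldsN.splitB l708 (HoldsN.splitB (HoldsN.splitA l710 l711) l712))) (HoldsN.splitB (HoldsN.splitB (HoldsN.splitB l705 l706) l707) (HoldsN.splitB l709 (HoldsN.splitB l713 l714))))))

theorem root6_1 : HoldsN X6 (chamber 1 1) (chamberNR 5 14) :=
  (HoldsN.splitA (HoldsN.splitA (HoldsN.splitA (HoldsN.splitB (HoldsN.splitB (HoldsN.splitB l715 l716) l717) (HoldsN.splitB (HoldsN.splitA l724 (HoldsN.splitB l725 (HoldsN.splitB l726 l727))) (HoldsN.splitB (HoldsN.splitA l744 l745) l746))) (HoldsN.splitB l718 (HoldsN.splitB l728 l747))) (HoldsN.splitB (HoldsN.splitB (HoldsN.splitB (HoldsN.splitA l719 l720) l721) (HoldsN.splitA l722 l723)) (HoldsN.splitA (HoldsN.splitB (HoldsN.splitB (HoldsN.splitA l729 l730) (HoldsN.splitB l731 (HoldsN.splitA l732 l733))) (HoldsN.splitB (HoldsN.splitB (HoldsN.splitA (HoldsN.splitA l748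 l749) l750) l751) (HoldsN.splitA l756 l757))) (HoldsN.splitA (HoldsN.splitB (HoldsN.splitB (HoldsN.splitB (HoldsN.splitB l734 l735) l736) (HoldsN.splitB l737 (HoldsN.splitB (HoldsN.splitA l738 l739) l740))) (HoldsN.splitB (HoldsN.splitB l752 l753) l758)) (HoldsN.splitB (HoldsN.splitB l741 (HoldsN.splitB l742 l743)) (HoldsN.splitB (HoldsN.splitB l754 l755) l759)))))) (HoldsN.splitA (HoldsN.splitB (HoldsN.splitB (HoldsN.splitB (HoldsN.splitA l760 (HoldsN.splitA (HoldsN.splitB l761 l762) l763)) l764) (HoldsN.splitA l765 (HoldsN.splitA (HoldsN.splitB l766 (HoldsN.splitB l767 l768)) l769))) (HoldsN.splitB (HoldsN.splitA (HoldsN.splitB l770 (HoldsN.splitB l771 l772)) (HoldsN.splitA (HoldsN.splitB l773 (HoldsN.splitB l774 l775)) (HoldsN.splitB l776 (HoldsN.splitB l777 l778)))) (HoldsN.splitB (HoldsN.splitA (HoldsN.splitB l779 l780) (HoldsN.splitA l781 (HoldsN.splitB l782 l783))) l784))) (HoldsN.splitA (HoldsN.splitB (HoldsN.splitB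 (HoldsN.splitB l785 (HoldsN.splitA l786 l787)) l788) (HoldsN.splitB l792 (HoldsN.splitB (HoldsN.splitA l794 l795) l796))) (HoldsN.splitB (HoldsN.splitB (HoldsN.splitB l789 l790) l791) (HoldsN.splitB l793 (HoldsN.splitB l797 l798))))))

theorem root7_0 : HoldsN X7 (chamber 1 1) (chamberN 5 14) :=
  (HoldsN.splitA (HoldsN.splitA (HoldsN.splitA (HoldsN.splitB (HoldsN.splitB (HoldsN.splitB l799 l801) l803) (HoldsN.splitB (HoldsN.splitA l817 (HoldsN.splitB l819 (HoldsN.splitB l821 l823))) (HoldsN.splitB l873 (HoldsN.splitA l875 l877)))) (HoldsN.splitB l805 (HoldsN.splitB l825 l879))) (HoldsN.splitB (HoldsN.splitB (HoldsN.splitB (HoldsN.splitA l807 (HoldsN.splitA l809 l811)) l813) l815) (HoldsN.splitA (HoldsN.splitB (HoldsN.splitB (HoldsN.splitA (HoldsN.splitA (HoldsN.splitB l827 l829) l831) (HoldsN.splitB (HoldsN.splitB l833 l835) l837)) (HoldsN.splitB l839 (HoldsN.splitA (HoldsN.splitA (HoldsN.splitB l841 l843) l845) (HoldsN.splitB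 l847 l849)))) (HoldsN.splitB (HoldsN.splitB l881 l883) (HoldsN.splitA (HoldsN.splitA l893 l895) l897))) (HoldsN.splitA (HoldsN.splitB (HoldsN.splitB (HoldsN.splitB (HoldsN.splitB l851 (HoldsN.splitA l853 l855)) l857) (HoldsN.splitB l859 (HoldsN.splitB (HoldsN.splitA l861 l863) l865))) (HoldsN.splitB (HoldsN.splitB l885 l887) (HoldsN.splitB l899 l901))) (HoldsN.splitB (HoldsN.splitB l867 (HoldsN.splitB l869 l871)) (HoldsN.splitB (HoldsN.splitB l889 l891) (HoldsN.splitA l903 l905))))))) (HoldsN.splitA (HoldsN.splitA (HoldsN.splitB (HoldsN.splitB (HoldsN.splitB (HoldsN.splitB l907 l909) l919) (HoldsN.splitB l923 (HoldsN.splitB l925 l927))) (HoldsN.splitB (HoldsN.splitB l941 (HoldsN.splitB l943 l945)) (HoldsN.splitB (HoldsN.splitB l959 l961) l971))) (HoldsN.splitB (HoldsN.splitB (HoldsN.splitB (HoldsN.splitA (HoldsN.splitB l911 l913) (HoldsN.splitB l915 l917)) l921) (HoldsN.splitA (HoldsN.splitB l929 (HoldsN.splitB l931 l933))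 (HoldsN.splitB l935 (HoldsN.splitB l937 l939)))) (HoldsN.splitB (HoldsN.splitA (HoldsN.splitB l947 (HoldsN.splitB l949 l951)) (HoldsN.splitB l953 (HoldsN.splitB l955 l957))) (HoldsN.splitB (HoldsN.splitA (HoldsN.splitB l963 l965) (HoldsN.splitB l967 l969)) l973)))) (HoldsN.splitA (HoldsN.splitB (HoldsN.splitB (HoldsN.splitB l975 (HoldsN.splitA (HoldsN.splitB (HoldsN.splitB l977 (HoldsN.splitA l979 l981)) l983) (HoldsN.splitA l985 l987))) l989) (HoldsN.splitB l997 (HoldsN.splitB (HoldsN.splitA (HoldsN.splitB l1001 (HoldsN.splitB (HoldsN.splitA l1003 l1005) l1007)) (HoldsN.splitB l1009 (HoldsN.splitA (HoldsN.splitB l1011 l1013) l1015))) l1017))) (HoldsN.splitB (HoldsN.splitB (HoldsN.splitB l991 l993) l995) (HoldsN.splitB l999 (HoldsN.splitB (HoldsN.splitB l1019 l1021) l1023))))))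

theorem root7_1 : HoldsN X7 (chamber 1 1) (chamberNR 5 14) :=
  (HoldsN.splitA (HoldsN.splitA (HoldsN.splitA (HoldsN.splitB (HoldsN.splitB (HoldsN.splitB l1025 l1027) l1029) (HoldsN.splitB (HoldsN.splitA l1043 (HoldsN.splitB l1045 (HoldsN.splitB l1047 l1049))) (HoldsN.splitB l1089 l1091))) (HoldsN.splitB l1031 (HoldsN.splitB l1051 l1093))) (HoldsN.splitB (HoldsN.splitB (HoldsN.splitB (HoldsN.splitA l1033 l1035) l1037) (HoldsN.splitA l1039 l1041)) (HoldsN.splitA (HoldsN.splitB (HoldsN.splitA (HoldsN.splitB l1053 (HoldsN.splitB l1059 l1063)) (HoldsN.splitB (HoldsN.splitB l1055 l1057) (HoldsN.splitB l1061 (HoldsN.splitB l1065 l1067)))) (HoldsN.splitB (HoldsN.splitB (HoldsN.splitA l1095 l1097) l1099) (HoldsN.splitA l1109 l1111))) (HoldsN.splitB (HoldsN.splitA (HoldsN.splitB (HoldsN.splitB (HoldsN.splitB l1069 l1071) l1073) (HoldsN.splitB l1075 (HoldsN.splitB (HoldsN.splitA l1077 l1079) l1081))) (HoldsN.splitB l1083 (HoldsN.splitB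 l1085 l1087))) (HoldsN.splitB (HoldsN.splitA (HoldsN.splitB l1101 l1103) (HoldsN.splitB l1105 l1107)) l1113))))) (HoldsN.splitA (HoldsN.splitB (HoldsN.splitB (HoldsN.splitB (HoldsN.splitA (HoldsN.splitB l1115 l1117) (HoldsN.splitA (HoldsN.splitB l1119 l1121) l1123)) l1125) (HoldsN.splitA (HoldsN.splitB l1127 l1129) (HoldsN.splitA (HoldsN.splitB l1131 (HoldsN.splitB l1133 l1135)) l1137))) (HoldsN.splitA (HoldsN.splitB (HoldsN.splitB l1139 (HoldsN.splitB l1141 l1143)) (HoldsN.splitB (HoldsN.splitB l1157 l1159) l1169)) (HoldsN.splitB (HoldsN.splitA (HoldsN.splitB l1145 (HoldsN.splitB l1147 l1149)) (HoldsN.splitB l1151 (HoldsN.splitB l1153 l1155))) (HoldsN.splitB (HoldsN.splitA (HoldsN.splitB l1161 l1163) (HoldsN.splitB l1165 l1167)) l1171)))) (HoldsN.splitA (HoldsN.splitB (HoldsN.splitB (HoldsN.splitB l1173 (HoldsN.splitA (HoldsN.splitB (HoldsN.splitB l1175 (HoldsN.splitA l1177 l1179)) l1181) (HoldsN.splitA l1183 l1185))) l1187)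 (HoldsN.splitB l1195 (HoldsN.splitB (HoldsN.splitA (HoldsN.splitB l1199 (HoldsN.splitB (HoldsN.splitA l1201 l1203) l1205)) (HoldsN.splitB l1207 (HoldsN.splitA l1209 l1211))) l1213))) (HoldsN.splitB (HoldsN.splitB (HoldsN.splitB l1189 l1191) l1193) (HoldsN.splitB l1197 (HoldsN.splitB (HoldsN.splitB l1215 l1217) l1219))))))

theorem root8_0 : HoldsN X8 (chamber 1 1) (chamberN 5 14) :=
  (HoldsN.splitA (HoldsN.splitA (HoldsN.splitA (HoldsN.splitB (HoldsN.splitB (HoldsN.splitB l800 l802) l804) (HoldsN.splitB (HoldsN.splitA l818 (HoldsN.splitB l820 (HoldsN.splitB l822 l824))) (HoldsN.splitB l874 (HoldsN.splitA l876 l878)))) (HoldsN.splitB l806 (HoldsN.splitB l826 l880))) (HoldsN.splitB (HoldsN.splitB (HoldsN.splitB (HoldsN.splitA l808 (HoldsN.splitA l810 l812)) l814) l816) (HoldsN.splitA (HoldsN.splitB (HoldsN.splitB (HoldsN.splitA (HoldsN.splitA (HoldsN.splitB l828 l830) l832) (HoldsN.splitB (HoldsN.splitB l834 l836) l838))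 (HoldsN.splitB l840 (HoldsN.splitA (HoldsN.splitA (HoldsN.splitB l842 l844) l846) (HoldsN.splitB l848 l850)))) (HoldsN.splitB (HoldsN.splitB l882 l884) (HoldsN.splitA (HoldsN.splitA l894 l896) l898))) (HoldsN.splitA (HoldsN.splitB (HoldsN.splitB (HoldsN.splitB (HoldsN.splitB l852 (HoldsN.splitA l854 l856)) l858) (HoldsN.splitB l860 (HoldsN.splitB (HoldsN.splitA l862 l864) l866))) (HoldsN.splitB (HoldsN.splitB l886 l888) (HoldsN.splitB l900 l902))) (HoldsN.splitB (HoldsN.splitB l868 (HoldsN.splitB l870 l872)) (HoldsN.splitB (HoldsN.splitB l890 l892) (HoldsN.splitA l904 l906))))))) (HoldsN.splitA (HoldsN.splitA (HoldsN.splitB (HoldsN.splitB (HoldsN.splitB (HoldsN.splitB l908 l910) l920) (HoldsN.splitB l924 (HoldsN.splitB l926 l928))) (HoldsN.splitB (HoldsN.splitB l942 (HoldsN.splitB l944 l946)) (HoldsN.splitB (HoldsN.splitB l960 l962) l972))) (HoldsN.splitB (HoldsN.splitB (HoldsN.splitB (HoldsN.splitA (HoldsN.splitB l912 l914)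 (HoldsN.splitB l916 l918)) l922) (HoldsN.splitA (HoldsN.splitB l930 (HoldsN.splitB l932 l934)) (HoldsN.splitB l936 (HoldsN.splitB l938 l940)))) (HoldsN.splitB (HoldsN.splitA (HoldsN.splitB l948 (HoldsN.splitB l950 l952)) (HoldsN.splitB l954 (HoldsN.splitB l956 l958))) (HoldsN.splitB (HoldsN.splitA (HoldsN.splitB l964 l966) (HoldsN.splitB l968 l970)) l974)))) (HoldsN.splitA (HoldsN.splitB (HoldsN.splitB (HoldsN.splitB l976 (HoldsN.splitA (HoldsN.splitB (HoldsN.splitB l978 (HoldsN.splitA l980 l982)) l984) (HoldsN.splitA l986 l988))) l990) (HoldsN.splitB l998 (HoldsN.splitB (HoldsN.splitA (HoldsN.splitB l1002 (HoldsN.splitB (HoldsN.splitA l1004 l1006) l1008)) (HoldsN.splitB l1010 (HoldsN.splitA (HoldsN.splitB l1012 l1014) l1016))) l1018))) (HoldsN.splitB (HoldsN.splitB (HoldsN.splitB l992 l994) l996) (HoldsN.splitB l1000 (HoldsN.splitB (HoldsN.splitB l1020 l1022) l1024))))))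

theorem root8_1 : HoldsN X8 (chamber 1 1) (chamberNR 5 14) :=
  (HoldsN.splitA (HoldsN.splitA (HoldsN.splitA (HoldsN.splitB (HoldsN.splitB (HoldsN.splitB l1026 l1028) l1030) (HoldsN.splitB (HoldsN.splitA l1044 (HoldsN.splitB l1046 (HoldsN.splitB l1048 l1050))) (HoldsN.splitB l1090 l1092))) (HoldsN.splitB l1032 (HoldsN.splitB l1052 l1094))) (HoldsN.splitB (HoldsN.splitB (HoldsN.splitB (HoldsN.splitA l1034 l1036) l1038) (HoldsN.splitA l1040 l1042)) (HoldsN.splitA (HoldsN.splitB (HoldsN.splitA (HoldsN.splitB l1054 (HoldsN.splitB l1060 l1064)) (HoldsN.splitB (HoldsN.splitB l1056 l1058) (HoldsN.splitB l1062 (HoldsN.splitB l1066 l1068)))) (HoldsN.splitB (HoldsN.splitB (HoldsN.splitA l1096 l1098) l1100) (HoldsN.splitA l1110 l1112))) (HoldsN.splitB (HoldsN.splitA (HoldsN.splitB (HoldsN.splitB (HoldsN.splitB l1070 l1072) l1074) (HoldsN.splitB l1076 (HoldsN.splitB (HoldsN.splitA l1078 l1080) l1082))) (HoldsN.splitB l1084 (HoldsN.splitB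 l1086 l1088))) (HoldsN.splitB (HoldsN.splitA (HoldsN.splitB l1102 l1104) (HoldsN.splitB l1106 l1108)) l1114))))) (HoldsN.splitA (HoldsN.splitB (HoldsN.splitB (HoldsN.splitB (HoldsN.splitA (HoldsN.splitB l1116 l1118) (HoldsN.splitA (HoldsN.splitB l1120 l1122) l1124)) l1126) (HoldsN.splitA (HoldsN.splitB l1128 l1130) (HoldsN.splitA (HoldsN.splitB l1132 (HoldsN.splitB l1134 l1136)) l1138))) (HoldsN.splitA (HoldsN.splitB (HoldsN.splitB l1140 (HoldsN.splitB l1142 l1144)) (HoldsN.splitB (HoldsN.splitB l1158 l1160) l1170)) (HoldsN.splitB (HoldsN.splitA (HoldsN.splitB l1146 (HoldsN.splitB l1148 l1150)) (HoldsN.splitB l1152 (HoldsN.splitB l1154 l1156))) (HoldsN.splitB (HoldsN.splitA (HoldsN.splitB l1162 l1164) (HoldsN.splitB l1166 l1168)) l1172)))) (HoldsN.splitA (HoldsN.splitB (HoldsN.splitB (HoldsN.splitB l1174 (HoldsN.splitA (HoldsN.splitB (HoldsN.splitB l1176 (HoldsN.splitA l1178 l1180)) l1182) (HoldsN.splitA l1184 l1186))) l1188)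 (HoldsN.splitB l1196 (HoldsN.splitB (HoldsN.splitA (HoldsN.splitB l1200 (HoldsN.splitB (HoldsN.splitA l1202 l1204) l1206)) (HoldsN.splitB l1208 (HoldsN.splitA l1210 l1212))) l1214))) (HoldsN.splitB (HoldsN.splitB (HoldsN.splitB l1190 l1192) l1194) (HoldsN.splitB l1198 (HoldsN.splitB (HoldsN.splitB l1216 l1218) l1220))))))

theorem merge2 (a c : Tp) (ha : InSx 1 a) (hc : InSx 1 c) :
    KT (potL X2.Lc) (sc ss a) (sc ss c) ≤ X2.rhs (sc ss a) (sc ss c) :=
  KT_le_all2 (by norm_num) (by norm_num) root2_0 root2_1 a c ha hc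

theorem merge3 (a c : Tp) (ha : InSx 1 a) (hc : InSx 1 c) :
    KT (potL X3.Lc) a (sc ss c) ≤ X3.rhs a (sc ss c) :=
  KT_le_all (by norm_num) (by norm_num) root3_0 root3_1 a c ha hc

theorem merge4 (a c : Tp) (ha : InSx 1 a) (hc : InSx 1 c) :
    KT (potL X4.Lc) a (sc ss c) ≤ X4.rhs a (sc ss c) :=
  KT_le_all (by norm_num) (by norm_num) root4_0 root4_1 a c ha hc

theorem merge5 (a c : Tp) (ha : InSx 1 a) (hc : InSx 1 c) :
    KT (potL X5.Lc) a (sc ss c) ≤ X5.rhs a (sc ss c) :=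
  KT_le_all (by norm_num) (by norm_num) root5_0 root5_1 a c ha hc

theorem merge6 (a c : Tp) (ha : InSx 1 a) (hc : InSx 1 c) :
    KT (potL X6.Lc) a (sc ss c) ≤ X6.rhs a (sc ss c) :=
  KT_le_all (by norm_num) (by norm_num) root6_0 root6_1 a c ha hc

theorem merge7 (a c : Tp) (ha : InSx 1 a) (hc : InSx 1 c) :
    KT (potL X7.Lc) a (sc ss c) ≤ X7.rhs a (sc ss c) :=
  KT_le_all (by norm_num) (by norm_num) root7_0 root7_1 a c ha hc

theorem merge8 (a c : Tp) (ha : InSx 1 a) (hc : InSx 1 c) :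
    KT (potL X8.Lc) a (sc ss c) ≤ X8.rhs a (sc ss c) :=
  KT_le_all (by norm_num) (by norm_num) root8_0 root8_1 a c ha hc


end

end Vale.Agent.Lib.P154N.D8
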